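import Crest.Agent.R345.CertX.Hc00T

set_option autoImplicit false
set_option linter.all false
set_option maxRecDepth 100000
set_option Elab.async false

namespace Crest.Agent.R345.CertX
open Crest.Agent.R345.Cert
open Crest.Agent.R345.Cert.Tr

theorem c00_P3 : chkZ 241 67108864 1040 (Nat.succ 9) 494 (addmul M1 c00_g2 (mulT M0 c00_g3 [M2, M3, M4, M5, M6, M7, M8, M9])) = true := by krefl
theorem c00_P4 : chkZ 241 67108864 1040 (Nat.succ 9) 494 (addmul M1 c00_g3 (mulT M0 c00_g4 [M2, M3, M4, M5, M6, M7, M8, M9])) = true := by krefl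
theorem c00_P5 : chkZ 241 67108864 1040 (Nat.succ 9) 494 (addmul M1 c00_g4 (mulT M0 c00_g5 [M2, M3, M4, M5, M6, M7, M8, M9])) = true := by krefl
theorem c00_P6 : chkZ 241 67108864 1040 (Nat.succ 9) 494 (addmul M1 c00_g5 (mulT M0 c00_g6 [M2, M3, M4, M5, M6, M7, M8, M9])) = true := by krefl
theorem c00_P7 : chkZ 241 67108864 1040 (Nat.succ 9) 494 (addmul M1 c00_g6 (mulT M0 c00_g7 [M2, M3, M4, M5, M6, M7, M8, M9])) = true := by krefl
theorem c00_P8 : chkZ 241 67108864 1040 (Nat.succ 9) 494 (addmul M1 c00_g7 (lin M0 c00_l [M2, M3, M4, M5, M6, M7, M8, M9])) = true := by krefl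
theorem c00_P9 : chkZ 241 67108864 1040 (Nat.succ 9) 494 (lf (M1 * c00_l)) = true := by krefl

end Crest.Agent.R345.CertX
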