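import Crest.Agent.R345.CertX.Hc00P0
import Crest.Agent.R345.CertX.Hc00P1
import Crest.Agent.R345.CertX.Hc00P2
import Crest.Agent.R345.CertX.Hc00Pr

set_option autoImplicit false
set_option linter.all false
set_option maxRecDepth 100000
set_option Elab.async false

namespace Crest.Agent.R345.CertX
open Crest.Agent.R345.Cert
open Crest.Agent.R345.Cert.Tr

theorem c00_chk : chk1 241 67108864 1040 9 494 (mulT M0 c00_T [M1, M2, M3, M4, M5, M6, M7, M8, M9]) = true := by
  simp only [c00_T_def, mulT_nd_cons, mulT_lf_cons, fma_nd, addmul_nd_nd, addmul_lf, addlf_lf, chk1_nd, chkZ_nd, c00_P0, c00_P1, c00_P2, c00_P3, c00_P4, c00_P5, c00_P6, c00_P7, c00_P8, c00_P9, Bool.and_true]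
theorem c00_good : good mask c00_T 17 = true := by krefl
theorem c00_ok {A : Type*} [CommRing A] (hp : ((241 : ℕ) : A) = 0) :
    CellOK (fun k a b => (slot 26 (Mf b) (40 * a + 19 - k) : A)) 0 0 :=
  cellOK_of_check' hGM (by norm_num) hp hmask (by norm_num) (by norm_num) c00_good (by norm_num)
    (by norm_num) (by norm_num) (by norm_num) rfl rfl rfl c00_chk

end Crest.Agent.R345.CertX
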