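import Crest.Agent.R345.CertX.S00
import Crest.Agent.R345.CertX.S01
import Crest.Agent.R345.CertX.Bc01
import Crest.Agent.R345.CertX.Bc10
import Crest.Agent.R345.CertX.Hc00F

set_option autoImplicit false
set_option linter.all false
set_option maxRecDepth 100000
set_option Elab.async false

namespace Crest.Agent.R345.CertX
open Crest.Agent.R345.Cert
open Crest.Agent.R345.Cert.Tr

theorem all_cells {A : Type*} [Field A] (hp : ((241 : ℕ) : A) = 0) : ∀ s < 10, ∀ t < 10,
    CellOK (fun k a b => (slot 26 (Mf b) (40 * a + 19 - k) : A)) s t ∨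
    CellOK (fun k a b => (slot 26 (Rf b) (40 * a + 19 - k) : A)) t s := by
  intro s hs t ht
  interval_cases s <;> interval_cases t
  · exact Or.inl (c00_ok hp)
  · exact Or.inr (c01_ok hp)
  · exact Or.inr (c02_ok hp)
  · exact Or.inr (c03_ok hp)
  · exact Or.inr (c04_ok hp)
  · exact Or.inr (c05_ok hp)
  · exact Or.inr (c06_ok hp)
  · exact Or.inr (c07_ok hp)
  · exact Or.inl (c08_ok hp)
  · exact Or.inl (c09_ok hp)
  · exact Or.inl (c10_ok hp)
  · exact Or.inl (c11_ok hp)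
  · exact Or.inr (c12_ok hp)
  · exact Or.inr (c13_ok hp)
  · exact Or.inr (c14_ok hp)
  · exact Or.inr (c15_ok hp)
  · exact Or.inl (c16_ok hp)
  · exact Or.inr (c17_ok hp)
  · exact Or.inl (c18_ok hp)
  · exact Or.inl (c19_ok hp)
  · exact Or.inl (c20_ok hp)
  · exact Or.inl (c21_ok hp)
  · exact Or.inl (c22_ok hp)
  · exact Or.inr (c23_ok hp)
  · exact Or.inl (c24_ok hp)
  · exact Or.inr (c25_ok hp)
  · exact Or.inr (c26_ok hp)
  · exact Or.inr (c27_ok hp)
  · exact Or.inl (c28_ok hp)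
  · exact Or.inl (c29_ok hp)
  · exact Or.inl (c30_ok hp)
  · exact Or.inl (c31_ok hp)
  · exact Or.inl (c32_ok hp)
  · exact Or.inl (c33_ok hp)
  · exact Or.inr (c34_ok hp)
  · exact Or.inl (c35_ok hp)
  · exact Or.inr (c36_ok hp)
  · exact Or.inr (c37_ok hp)
  · exact Or.inl (c38_ok hp)
  · exact Or.inl (c39_ok hp)
  · exact Or.inl (c40_ok hp)
  · exact Or.inl (c41_ok hp)
  · exact Or.inr (c42_ok hp)
  · exact Or.inl (c43_ok hp)
  · exact Or.inl (c44_ok hp)
  · exact Or.inr (c45_ok hp)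
  · exact Or.inr (c46_ok hp)
  · exact Or.inl (c47_ok hp)
  · exact Or.inl (c48_ok hp)
  · exact Or.inl (c49_ok hp)
  · exact Or.inl (c50_ok hp)
  · exact Or.inl (c51_ok hp)
  · exact Or.inl (c52_ok hp)
  · exact Or.inr (c53_ok hp)
  · exact Or.inl (c54_ok hp)
  · exact Or.inl (c55_ok hp)
  · exact Or.inl (c56_ok hp)
  · exact Or.inl (c57_ok hp)
  · exact Or.inl (c58_ok hp)
  · exact Or.inl (c59_ok hp)
  · exact Or.inl (c60_ok hp)
  · exact Or.inr (c61_ok hp)
  · exact Or.inl (c62_ok hp)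
  · exact Or.inl (c63_ok hp)
  · exact Or.inl (c64_ok hp)
  · exact Or.inl (c65_ok hp)
  · exact Or.inl (c66_ok hp)
  · exact Or.inl (c67_ok hp)
  · exact Or.inl (c68_ok hp)
  · exact Or.inl (c69_ok hp)
  · exact Or.inl (c70_ok hp)
  · exact Or.inl (c71_ok hp)
  · exact Or.inl (c72_ok hp)
  · exact Or.inl (c73_ok hp)
  · exact Or.inl (c74_ok hp)
  · exact Or.inl (c75_ok hp)
  · exact Or.inl (c76_ok hp)
  · exact Or.inl (c77_ok hp)
  · exact Or.inl (c78_ok hp)
  · exact Or.inl (c79_ok hp)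
  · exact Or.inl (c80_ok hp)
  · exact Or.inl (c81_ok hp)
  · exact Or.inl (c82_ok hp)
  · exact Or.inl (c83_ok hp)
  · exact Or.inl (c84_ok hp)
  · exact Or.inl (c85_ok hp)
  · exact Or.inl (c86_ok hp)
  · exact Or.inl (c87_ok hp)
  · exact Or.inl (c88_ok hp)
  · exact Or.inl (c89_ok hp)
  · exact Or.inl (c90_ok hp)
  · exact Or.inl (c91_ok hp)
  · exact Or.inl (c92_ok hp)
  · exact Or.inl (c93_ok hp)
  · exact Or.inl (c94_ok hp)
  · exact Or.inl (c95_ok hp)
  · exact Or.inl (c96_ok hp)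
  · exact Or.inl (c97_ok hp)
  · exact Or.inl (c98_ok hp)
  · exact Or.inl (c99_ok hp)

/-- **no common zero in characteristic 241** -/
theorem noZero (k : Type) [Field k] [CharP k 241] (u v : Fin 10 → k)
    (hz : ∀ t : Fin 20, ∑ i : Fin 10, ∑ j : Fin 10,
      ((ent NT (t : ℕ) (i : ℕ) (j : ℕ) : ℕ) : k) * u i * v j = 0) : u = 0 ∨ v = 0 :=
  noZero_final chkM chkR (all_cells (CharP.cast_eq_zero k 241)) u v hz

end Crest.Agent.R345.CertX
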