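import Crest.Agent.R345.CertX.Hc00Q0a
import Crest.Agent.R345.CertX.Hc00Q0b
import Crest.Agent.R345.CertX.Hc00Q0c

set_option autoImplicit false
set_option linter.all false
set_option maxRecDepth 100000
set_option Elab.async false

namespace Crest.Agent.R345.CertX
open Crest.Agent.R345.Cert
open Crest.Agent.R345.Cert.Tr

theorem c00_P0 : chk1 241 67108864 1040 9 494 (mulT M0 c00_g0 [M2, M3, M4, M5, M6, M7, M8, M9]) = true := by
  simp only [c00_g0_def, mulT_nd_cons, mulT_lf_cons, fma_nd, addmul_nd_nd, addmul_lf, addlf_lf, chk1_nd, chkZ_nd, c00_Q0_0, c00_Q0_1, c00_Q0_2, c00_Q0_3, c00_Q0_4, c00_Q0_5, c00_Q0_6, c00_Q0_7, c00_Q0_8, c00_Q0_9, Bool.and_true]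

end Crest.Agent.R345.CertX
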