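import Crest.Agent.R345.CertX.Hc00D0

set_option autoImplicit false
set_option linter.all false
set_option maxRecDepth 100000
set_option Elab.async false

namespace Crest.Agent.R345.CertX
open Crest.Agent.R345.Cert
open Crest.Agent.R345.Cert.Tr

theorem c00_Q0_0 : chk1 241 67108864 1040 9 494 (mulT M0 c00_g0_0 [M3, M4, M5, M6, M7, M8, M9]) = true := by krefl

end Crest.Agent.R345.CertX
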