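import Crest.Agent.R345.CertX.Hc00D2
import Crest.Agent.R345.CertX.Hc00D1

set_option autoImplicit false
set_option linter.all false
set_option maxRecDepth 100000
set_option Elab.async false

namespace Crest.Agent.R345.CertX
open Crest.Agent.R345.Cert
open Crest.Agent.R345.Cert.Tr

theorem c00_Q2_0 : chkZ 241 67108864 1040 (Nat.succ 9) 494 (addmul M1 c00_g1_0 (mulT M0 c00_g2_0 [M3, M4, M5, M6, M7, M8, M9])) = true := by krefl
theorem c00_Q2_1 : chkZ 241 67108864 1040 (Nat.succ 9) 494 (addmul M1 c00_g1_1 (addmul M2 c00_g2_0 (mulT M0 c00_g2_1 [M3, M4, M5, M6, M7, M8, M9]))) = true := by krefl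
theorem c00_Q2_2 : chkZ 241 67108864 1040 (Nat.succ 9) 494 (addmul M1 c00_g1_2 (addmul M2 c00_g2_1 (mulT M0 c00_g2_2 [M3, M4, M5, M6, M7, M8, M9]))) = true := by krefl
theorem c00_Q2_3 : chkZ 241 67108864 1040 (Nat.succ 9) 494 (addmul M1 c00_g1_3 (addmul M2 c00_g2_2 (mulT M0 c00_g2_3 [M3, M4, M5, M6, M7, M8, M9]))) = true := by krefl
theorem c00_Q2_4 : chkZ 241 67108864 1040 (Nat.succ 9) 494 (addmul M1 c00_g1_4 (addmul M2 c00_g2_3 (mulT M0 c00_g2_4 [M3, M4, M5, M6, M7, M8, M9]))) = true := by krefl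
theorem c00_Q2_5 : chkZ 241 67108864 1040 (Nat.succ 9) 494 (addmul M1 c00_g1_5 (addmul M2 c00_g2_4 (mulT M0 c00_g2_5 [M3, M4, M5, M6, M7, M8, M9]))) = true := by krefl
theorem c00_Q2_6 : chkZ 241 67108864 1040 (Nat.succ 9) 494 (addmul M1 c00_g1_6 (addmul M2 c00_g2_5 (lin M0 c00_g2_l [M3, M4, M5, M6, M7, M8, M9]))) = true := by krefl
theorem c00_Q2_7 : chkZ 241 67108864 1040 (Nat.succ 9) 494 (lf (M2 * c00_g2_l + M1 * c00_g1_l)) = true := by krefl

end Crest.Agent.R345.CertX
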